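import Mathlib

namespace Vale.Agent.Lib.P057

/-- `A` contains a `k`-term arithmetic progression `a, a + d, …, a + (k-1) d` with `d > 0`. -/
def HasAP (k : ℕ) (A : Set ℕ) : Prop := ∃ a d : ℕ, 0 < d ∧ ∀ i < k, a + i * d ∈ A

/-- `r_k(N)`: the largest cardinality of a subset of `{1, …, N}` containing no `k`-term
arithmetic progression. -/
noncomputable def rk (k N : ℕ) : ℕ :=
  sSup {m | ∃ B : Finset ℕ, B ⊆ Finset.Icc 1 N ∧ ¬ HasAP k (B : Set ℕ) ∧ B.card = m}

end Vale.Agent.Lib.P057
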