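import Mathlib
import Vale.Agent.Lib.P057.Defs

open Finset

namespace Vale.Agent.Lib.P057

theorem HasAP.mono {k : ℕ} {A B : Set ℕ} (h : A ⊆ B) (hA : HasAP k A) : HasAP k B := by
  obtain ⟨a, d, hd, hi⟩ := hA
  exact ⟨a, d, hd, fun i hik => h (hi i hik)⟩

theorem rk_bdd (k N : ℕ) :
    BddAbove {m | ∃ B : Finset ℕ, B ⊆ Finset.Icc 1 N ∧ ¬ HasAP k (B : Set ℕ) ∧ B.card = m} := by
  refine ⟨N, ?_⟩
  rintro m ⟨B, hB, _, rfl⟩
  simpa using Finset.card_le_card hB

theorem card_le_rk {k N : ℕ} {B : Finset ℕ} (hB : B ⊆ Finset.Icc 1 N)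
    (hAP : ¬ HasAP k (B : Set ℕ)) : B.card ≤ rk k N :=
  le_csSup (rk_bdd k N) ⟨B, hB, hAP, rfl⟩

theorem exists_extremal {k : ℕ} (hk : 0 < k) (N : ℕ) :
    ∃ B : Finset ℕ, B ⊆ Finset.Icc 1 N ∧ ¬ HasAP k (B : Set ℕ) ∧ B.card = rk k N := by
  have hne : {m | ∃ B : Finset ℕ, B ⊆ Finset.Icc 1 N ∧ ¬ HasAP k (B : Set ℕ)
      ∧ B.card = m}.Nonempty := by
    refine ⟨0, ∅, by simp, ?_, by simp⟩
    rintro ⟨a, d, _, hi⟩
    simpa using hi 0 hk
  exact Nat.sSup_mem hne (rk_bdd k N)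

/-- Translation invariance. -/
theorem card_le_rk_translate {k N x : ℕ} {B : Finset ℕ} (hB : B ⊆ Finset.Icc (x + 1) (x + N))
    (hAP : ¬ HasAP k (B : Set ℕ)) : B.card ≤ rk k N := by
  classical
  have hinj : Set.InjOn (fun b => b - x) (B : Set ℕ) := by
    intro b hb b' hb' h
    have h1 := Finset.mem_Icc.1 (hB hb)
    have h2 := Finset.mem_Icc.1 (hB hb')
    simp only at h
    omega
  rw [← Finset.card_image_of_injOn hinj]
  refine card_le_rk ?_ ?_
  · intro y hy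
    obtain ⟨b, hb, rfl⟩ := Finset.mem_image.1 hy
    have h1 := Finset.mem_Icc.1 (hB hb)
    rw [Finset.mem_Icc]
    omega
  · rintro ⟨a, d, hd, hi⟩
    apply hAP
    refine ⟨a + x, d, hd, fun i hik => ?_⟩
    have := hi i hik
    rw [Finset.mem_coe, Finset.mem_image] at this
    obtain ⟨b, hb, hbe⟩ := this
    have h1 := Finset.mem_Icc.1 (hB hb)
    have : a + x + i * d = b := by omega
    rw [this]
    exact hb

theorem rk_two_mul_le (k N : ℕ) (hk : 0 < k) : rk k (2 * N) ≤ 2 * rk k N := by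
  classical
  obtain ⟨B, hB, hAP, hcard⟩ := exists_extremal hk (2 * N)
  rw [← hcard]
  have hsplit : B = B.filter (fun b => b ≤ N) ∪ B.filter (fun b => ¬ b ≤ N) :=
    (Finset.filter_union_filter_not_eq _ B).symm
  have h1 : (B.filter (fun b => b ≤ N)).card ≤ rk k N := by
    refine card_le_rk ?_ (fun h => hAP (h.mono ?_))
    · intro b hb
      have hb' := Finset.mem_filter.1 hb
      have := Finset.mem_Icc.1 (hB hb'.1)
      rw [Finset.mem_Icc]
      exact ⟨this.1, hb'.2⟩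
    · exact Finset.coe_subset.2 (Finset.filter_subset _ _)
  have h2 : (B.filter (fun b => ¬ b ≤ N)).card ≤ rk k N := by
    refine card_le_rk_translate (x := N) ?_ (fun h => hAP (h.mono ?_))
    · intro b hb
      have hb' := Finset.mem_filter.1 hb
      have := Finset.mem_Icc.1 (hB hb'.1)
      rw [Finset.mem_Icc]
      omega
    · exact Finset.coe_subset.2 (Finset.filter_subset _ _)
  calc B.card = (B.filter (fun b => b ≤ N) ∪ B.filter (fun b => ¬ b ≤ N)).card := by rw [← hsplit]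
    _ ≤ (B.filter (fun b => b ≤ N)).card + (B.filter (fun b => ¬ b ≤ N)).card :=
        Finset.card_union_le _ _
    _ ≤ 2 * rk k N := by omega

/-- The normalised sequence `c n = r_k(2^n) / 2^n`. -/
noncomputable def cseq (k n : ℕ) : ℝ := (rk k (2 ^ n) : ℝ) / 2 ^ n

theorem cseq_nonneg (k n : ℕ) : 0 ≤ cseq k n := by unfold cseq; positivity

theorem cseq_succ_le (k n : ℕ) (hk : 0 < k) : cseq k (n + 1) ≤ cseq k n := by
  unfold cseq
  have h : rk k (2 ^ (n + 1)) ≤ 2 * rk k (2 ^ n) := by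
    rw [pow_succ, mul_comm]; exact rk_two_mul_le k _ hk
  have h' : (rk k (2 ^ (n + 1)) : ℝ) ≤ 2 * rk k (2 ^ n) := by exact_mod_cast h
  rw [div_le_div_iff₀ (by positivity) (by positivity)]
  have hp : (0:ℝ) < 2 ^ n := by positivity
  have e : (2:ℝ) ^ (n + 1) = 2 * 2 ^ n := by rw [pow_succ]; ring
  rw [e]
  nlinarith

theorem cseq_antitone (k : ℕ) (hk : 0 < k) : Antitone (cseq k) :=
  antitone_nat_of_succ_le (fun n => cseq_succ_le k n hk)

end Vale.Agent.Lib.P057
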