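import Mathlib
import Vale.Agent.Lib.P057.Basic

open Finset
open scoped Classical

namespace Vale.Agent.Lib.P057

/-- the reciprocal weight of a set -/
noncomputable def recip (A : Set ℕ) : ℕ → ℝ := A.indicator (fun a : ℕ => (1 : ℝ) / a)

theorem recip_nonneg (A : Set ℕ) (a : ℕ) : 0 ≤ recip A a := by
  unfold recip
  exact Set.indicator_nonneg (fun a _ => by positivity) a

theorem block_le (k : ℕ) (A : Set ℕ) (hAP : ¬ HasAP k A) (M : ℕ) :
    ∑ a ∈ Finset.Ico (2 ^ M) (2 ^ (M + 1)), recip A a ≤ cseq k M := by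
  set B : Finset ℕ := (Finset.Ico (2 ^ M) (2 ^ (M + 1))).filter (fun a => a ∈ A) with hB
  have hpos : 0 < 2 ^ M := by positivity
  have h1 : ∑ a ∈ Finset.Ico (2 ^ M) (2 ^ (M + 1)), recip A a = ∑ a ∈ B, (1 : ℝ) / a := by
    rw [hB, Finset.sum_filter]
    refine Finset.sum_congr rfl (fun a _ => ?_)
    unfold recip
    by_cases ha : a ∈ A <;> simp [ha]
  have h2 : ∑ a ∈ B, (1 : ℝ) / a ≤ ∑ _a ∈ B, (1 : ℝ) / 2 ^ M := by
    refine Finset.sum_le_sum (fun a ha => ?_)
    have ha' := Finset.mem_Ico.1 (Finset.mem_filter.1 ha).1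
    have : ((2 : ℝ) ^ M) ≤ a := by exact_mod_cast ha'.1
    exact one_div_le_one_div_of_le (by positivity) this
  have h3 : B.card ≤ rk k (2 ^ M) := by
    refine card_le_rk_translate (x := 2 ^ M - 1) ?_ (fun h => hAP (h.mono ?_))
    · intro a ha
      have ha' := Finset.mem_Ico.1 (Finset.mem_filter.1 ha).1
      rw [Finset.mem_Icc]
      rw [pow_succ] at ha'
      omega
    · intro a ha
      exact (Finset.mem_filter.1 ha).2
  rw [h1]
  refine le_trans h2 ?_
  rw [Finset.sum_const, nsmul_eq_mul]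
  unfold cseq
  rw [mul_one_div]
  have : (B.card : ℝ) ≤ rk k (2 ^ M) := by exact_mod_cast h3
  exact div_le_div_of_nonneg_right this (by positivity)

theorem sum_range_pow_le (k : ℕ) (A : Set ℕ) (hAP : ¬ HasAP k A) (M : ℕ) :
    ∑ a ∈ Finset.range (2 ^ M), recip A a ≤ ∑ n ∈ Finset.range M, cseq k n := by
  induction M with
  | zero =>
    simp only [pow_zero, Finset.sum_range_one, Finset.range_zero, Finset.sum_empty]
    unfold recip
    by_cases h : (0 : ℕ) ∈ A <;> simp [h]
  | succ M ih =>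
    have hle : 2 ^ M ≤ 2 ^ (M + 1) := Nat.pow_le_pow_right (by norm_num) (Nat.le_succ M)
    rw [← Finset.sum_range_add_sum_Ico _ hle, Finset.sum_range_succ]
    exact add_le_add ih (block_le k A hAP M)

theorem summable_recip (k : ℕ) (A : Set ℕ) (hAP : ¬ HasAP k A) (hc : Summable (cseq k)) :
    Summable (recip A) ∧ ∑' a, recip A a ≤ ∑' n, cseq k n := by
  have hbound : ∀ n, ∑ a ∈ Finset.range n, recip A a ≤ ∑' n, cseq k n := by
    intro n
    have h1 : ∑ a ∈ Finset.range n, recip A a ≤ ∑ a ∈ Finset.range (2 ^ n), recip A a :=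
      Finset.sum_le_sum_of_subset_of_nonneg
        (Finset.range_mono (Nat.lt_two_pow_self).le) (fun a _ _ => recip_nonneg A a)
    refine le_trans h1 (le_trans (sum_range_pow_le k A hAP n) ?_)
    exact hc.sum_le_tsum _ (fun n _ => cseq_nonneg k n)
  have hs : Summable (recip A) := summable_of_sum_range_le (recip_nonneg A) hbound
  exact ⟨hs, hs.tsum_le_of_sum_range_le hbound⟩

end Vale.Agent.Lib.P057
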