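import Mathlib
import Vale.Agent.Lib.P057.Upper

open Finset
open scoped Classical

namespace Vale.Agent.Lib.P057

theorem summable_of_summable_three {c : ℕ → ℝ} (hc0 : ∀ n, 0 ≤ c n) (hanti : Antitone c)
    (h3 : Summable (fun j => c (3 * j))) : Summable c := by
  have hstep : ∀ J, ∑ n ∈ Finset.range (3 * J), c n ≤ 3 * ∑ j ∈ Finset.range J, c (3 * j) := by
    intro J
    induction J with
    | zero => simp
    | succ J ih =>
      have e : 3 * (J + 1) = 3 * J + 1 + 1 + 1 := by ring
      rw [e, Finset.sum_range_succ, Finset.sum_range_succ, Finset.sum_range_succ,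
        Finset.sum_range_succ]
      have h1 : c (3 * J + 1) ≤ c (3 * J) := hanti (by omega)
      have h2 : c (3 * J + 1 + 1) ≤ c (3 * J) := hanti (by omega)
      linarith
  refine summable_of_sum_range_le (c := 3 * ∑' j, c (3 * j)) hc0 (fun n => ?_)
  have h1 : ∑ i ∈ Finset.range n, c i ≤ ∑ i ∈ Finset.range (3 * n), c i :=
    Finset.sum_le_sum_of_subset_of_nonneg (Finset.range_mono (by omega)) (fun a _ _ => hc0 a)
  have h2 : ∑ j ∈ Finset.range n, c (3 * j) ≤ ∑' j, c (3 * j) :=
    h3.sum_le_tsum _ (fun j _ => hc0 _)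
  linarith [hstep n]

/-- scale of the `j`-th block -/
def P (j : ℕ) : ℕ := 2 ^ (3 * j)

theorem P_pos (j : ℕ) : 0 < P j := by unfold P; positivity

theorem P_succ (j : ℕ) : P (j + 1) = 8 * P j := by
  unfold P
  rw [show 3 * (j + 1) = 3 * j + 3 by ring, pow_add]
  ring

theorem P_lt {j j' : ℕ} (h : j < j') : 8 * P j ≤ P j' := by
  rw [← P_succ]
  unfold P
  exact Nat.pow_le_pow_right (by norm_num) (by omega)

/-- the union of the translated blocks -/
def blockSet (B : ℕ → Finset ℕ) : Set ℕ := {y | ∃ j, ∃ b ∈ B j, y = 2 * P j + b}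

theorem mem_block {B : ℕ → Finset ℕ} (hB : ∀ j, B j ⊆ Finset.Icc 1 (P j)) {y j : ℕ}
    (hy : y ∈ blockSet B) (h1 : P j < y) (h2 : y ≤ 3 * P j) : ∃ b ∈ B j, y = 2 * P j + b := by
  obtain ⟨j', b, hb, rfl⟩ := hy
  have hb' := Finset.mem_Icc.1 (hB j' hb)
  rcases lt_trichotomy j' j with h | h | h
  · have := P_lt h
    omega
  · subst h
    exact ⟨b, hb, rfl⟩
  · have := P_lt h
    omega

theorem blockSet_pos {B : ℕ → Finset ℕ} {y : ℕ} (hy : y ∈ blockSet B) : 0 < y := by
  obtain ⟨j, b, _, rfl⟩ := hy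
  have := P_pos j
  omega

theorem blockSet_noAP {k : ℕ} (hk : 3 ≤ k) {B : ℕ → Finset ℕ}
    (hB : ∀ j, B j ⊆ Finset.Icc 1 (P j)) (hAP : ∀ j, ¬ HasAP k (B j : Set ℕ)) :
    ¬ HasAP k (blockSet B) := by
  rintro ⟨a, d, hd, hi⟩
  obtain ⟨j, b, hb, hw⟩ := hi (k - 1) (by omega)
  have hbI := Finset.mem_Icc.1 (hB j hb)
  -- all terms are in block j
  have key : ∀ n, (∀ i, i + n = k - 1 → ∃ b ∈ B j, a + i * d = 2 * P j + b) ∧
      (∀ i, i + (n + 1) = k - 1 → ∃ b ∈ B j, a + i * d = 2 * P j + b) := by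
    intro n
    induction n with
    | zero =>
      have h0 : ∀ i, i + 0 = k - 1 → ∃ b ∈ B j, a + i * d = 2 * P j + b := by
        intro i hik
        have : i = k - 1 := by omega
        subst this
        exact ⟨b, hb, hw⟩
      refine ⟨h0, ?_⟩
      intro i hik
      -- i = k - 2, uses the term i - 1 = k - 3
      have hmem : a + i * d ∈ blockSet B := hi i (by omega)
      have e1 : a + (i + 1) * d = a + i * d + d := by ring
      have hi1 : i + 1 = k - 1 := by omega
      rw [← hi1, e1] at hw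
      obtain ⟨i0, rfl⟩ : ∃ i0, i = i0 + 1 := ⟨i - 1, by omega⟩
      have e0 : a + (i0 + 1) * d = a + i0 * d + d := by ring
      rw [e0] at hw hmem ⊢
      refine mem_block hB hmem ?_ ?_ <;> omega
    | succ n ih =>
      refine ⟨ih.2, ?_⟩
      intro i hik
      obtain ⟨b1, hb1, h1⟩ := ih.2 (i + 1) (by omega)
      obtain ⟨b2, hb2, h2⟩ := ih.1 (i + 2) (by omega)
      have hb1I := Finset.mem_Icc.1 (hB j hb1)
      have hb2I := Finset.mem_Icc.1 (hB j hb2)
      have hmem : a + i * d ∈ blockSet B := hi i (by omega)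
      have e1 : a + (i + 1) * d = a + i * d + d := by ring
      have e2 : a + (i + 2) * d = a + i * d + d + d := by ring
      rw [e1] at h1
      rw [e2] at h2
      refine mem_block hB hmem ?_ ?_ <;> omega
  have hall : ∀ i < k, ∃ b ∈ B j, a + i * d = 2 * P j + b := by
    intro i hik
    exact (key (k - 1 - i)).1 i (by omega)
  apply hAP j
  obtain ⟨b0, _, h0⟩ := hall 0 (by omega)
  refine ⟨b0, d, hd, fun i hik => ?_⟩
  obtain ⟨bi, hbi, hbe⟩ := hall i hik
  have : b0 + i * d = bi := by
    simp only [zero_mul, add_zero] at h0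
    omega
  rw [this]
  exact hbi

theorem blockSet_sum_ge (k : ℕ) {B : ℕ → Finset ℕ} (hB : ∀ j, B j ⊆ Finset.Icc 1 (P j))
    (hcard : ∀ j, (B j).card = rk k (P j)) (J : ℕ) :
    ∑ j ∈ Finset.range J, cseq k (3 * j) / 3
      ≤ ∑ a ∈ Finset.range (2 * P J + 1), recip (blockSet B) a := by
  induction J with
  | zero =>
    simp only [Finset.range_zero, Finset.sum_empty]
    exact Finset.sum_nonneg (fun a _ => recip_nonneg _ a)
  | succ J ih =>
    have hle : 2 * P J + 1 ≤ 2 * P (J + 1) + 1 := by rw [P_succ]; omega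
    rw [Finset.sum_range_succ, ← Finset.sum_range_add_sum_Ico _ hle]
    refine add_le_add ih ?_
    have hPpos := P_pos J
    have hinj : Set.InjOn (fun b => 2 * P J + b) (B J : Set ℕ) := by
      intro x _ y _ h
      simp only at h
      omega
    have hsub : (B J).image (fun b => 2 * P J + b)
        ⊆ Finset.Ico (2 * P J + 1) (2 * P (J + 1) + 1) := by
      intro y hy
      obtain ⟨b, hb, rfl⟩ := Finset.mem_image.1 hy
      have hbI := Finset.mem_Icc.1 (hB J hb)
      rw [Finset.mem_Ico, P_succ]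
      omega
    have h1 : ∑ a ∈ (B J).image (fun b => 2 * P J + b), recip (blockSet B) a
        ≤ ∑ a ∈ Finset.Ico (2 * P J + 1) (2 * P (J + 1) + 1), recip (blockSet B) a :=
      Finset.sum_le_sum_of_subset_of_nonneg hsub (fun a _ _ => recip_nonneg _ a)
    refine le_trans ?_ h1
    rw [Finset.sum_image hinj]
    have h2 : ∑ _b ∈ B J, (1 : ℝ) / (3 * P J) ≤ ∑ b ∈ B J, recip (blockSet B) (2 * P J + b) := by
      refine Finset.sum_le_sum (fun b hb => ?_)
      have hbI := Finset.mem_Icc.1 (hB J hb)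
      have hmem : 2 * P J + b ∈ blockSet B := ⟨J, b, hb, rfl⟩
      unfold recip
      rw [Set.indicator_of_mem hmem]
      have hle' : ((2 * P J + b : ℕ) : ℝ) ≤ 3 * P J := by
        have : 2 * P J + b ≤ 3 * P J := by omega
        exact_mod_cast this
      have hpos' : (0 : ℝ) < ((2 * P J + b : ℕ) : ℝ) := by
        have : 0 < 2 * P J + b := by omega
        exact_mod_cast this
      exact one_div_le_one_div_of_le hpos' hle'
    refine le_trans (le_of_eq ?_) h2
    rw [Finset.sum_const, nsmul_eq_mul, hcard J]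
    unfold cseq P
    push_cast
    field_simp

/-- If `∑ r_k(2^n)/2^n` diverges, there is a set of positive integers without `k`-term
progressions whose reciprocal sum diverges. -/
theorem exists_counterexample {k : ℕ} (hk : 3 ≤ k) (hdiv : ¬ Summable (cseq k)) :
    ∃ A : Set ℕ, (∀ a ∈ A, 0 < a) ∧ ¬ HasAP k A ∧ ¬ Summable (recip A) := by
  have hk0 : 0 < k := by omega
  choose B hB hAP hcard using fun j => exists_extremal hk0 (P j)
  refine ⟨blockSet B, fun a ha => blockSet_pos ha, blockSet_noAP hk hB hAP, ?_⟩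
  intro hsum
  apply hdiv
  refine summable_of_summable_three (cseq_nonneg k) (cseq_antitone k hk0) ?_
  have h3 : Summable (fun j => cseq k (3 * j) / 3) := by
    refine summable_of_sum_range_le (c := ∑' a, recip (blockSet B) a)
      (fun j => div_nonneg (cseq_nonneg k _) (by norm_num)) (fun J => ?_)
    refine le_trans (blockSet_sum_ge k hB hcard J) ?_
    exact hsum.sum_le_tsum _ (fun a _ => recip_nonneg _ a)
  have := h3.mul_left 3
  refine this.congr (fun j => ?_)
  ring

theorem tsum_le_three {c : ℕ → ℝ} (hc0 : ∀ n, 0 ≤ c n) (hanti : Antitone c)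
    (hs : Summable c) : ∑' n, c n ≤ 3 * ∑' j, c (3 * j) := by
  have h3 : Summable (fun j => c (3 * j)) :=
    hs.comp_injective (fun a b h => by simpa using h)
  have hstep : ∀ J, ∑ n ∈ Finset.range (3 * J), c n ≤ 3 * ∑ j ∈ Finset.range J, c (3 * j) := by
    intro J
    induction J with
    | zero => simp
    | succ J ih =>
      have e : 3 * (J + 1) = 3 * J + 1 + 1 + 1 := by ring
      rw [e, Finset.sum_range_succ, Finset.sum_range_succ, Finset.sum_range_succ,
        Finset.sum_range_succ]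
      have h1 : c (3 * J + 1) ≤ c (3 * J) := hanti (by omega)
      have h2 : c (3 * J + 1 + 1) ≤ c (3 * J) := hanti (by omega)
      linarith
  refine hs.tsum_le_of_sum_range_le (fun n => ?_)
  have h1 : ∑ i ∈ Finset.range n, c i ≤ ∑ i ∈ Finset.range (3 * n), c i :=
    Finset.sum_le_sum_of_subset_of_nonneg (Finset.range_mono (by omega)) (fun a _ _ => hc0 a)
  have h2 : ∑ j ∈ Finset.range n, c (3 * j) ≤ ∑' j, c (3 * j) :=
    h3.sum_le_tsum _ (fun j _ => hc0 _)
  linarith [hstep n]

/-- In the convergent case some progression-free set has reciprocal sum at least one ninth of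
`∑ r_k(2^n)/2^n`. -/
theorem exists_large {k : ℕ} (hk : 3 ≤ k) (hs : Summable (cseq k)) :
    ∃ A : Set ℕ, (∀ a ∈ A, 0 < a) ∧ ¬ HasAP k A ∧ (∑' n, cseq k n) / 9 ≤ ∑' a, recip A a := by
  have hk0 : 0 < k := by omega
  choose B hB hAP hcard using fun j => exists_extremal hk0 (P j)
  have hno := blockSet_noAP hk hB hAP
  refine ⟨blockSet B, fun a ha => blockSet_pos ha, hno, ?_⟩
  have hsum := (summable_recip k (blockSet B) hno hs).1
  have h3 : Summable (fun j => cseq k (3 * j)) :=
    hs.comp_injective (fun a b h => by simpa using h)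
  have h3' : Summable (fun j => cseq k (3 * j) / 3) := h3.div_const 3
  have h4 : ∑' j, cseq k (3 * j) / 3 ≤ ∑' a, recip (blockSet B) a := by
    refine h3'.tsum_le_of_sum_range_le (fun J => ?_)
    refine le_trans (blockSet_sum_ge k hB hcard J) ?_
    exact hsum.sum_le_tsum _ (fun a _ => recip_nonneg _ a)
  rw [tsum_div_const] at h4
  have h5 := tsum_le_three (cseq_nonneg k) (cseq_antitone k hk0) hs
  linarith

end Vale.Agent.Lib.P057
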